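import Mathlib.NumberTheory.PellMatiyasevic
import Mathlib.Data.Nat.Log
import Mathlib.Analysis.SpecificLimits.Normed
import Mathlib.Algebra.Order.Field.Basic

/-!
Two levels of Pell solutions whose indices are pinned by congruences.
-/

namespace Vale.Agent.P345

open Pell Finset

lemma two_pow_le_yn {a : ℕ} (a1 : 1 < a) : ∀ k, 2 ^ k ≤ 2 * yn a1 k + 1
  | 0 => by simp
  | 1 => by simp
  | k + 2 => by
    have h := two_pow_le_yn a1 (k + 1)
    have hx : 1 ≤ xn a1 (k + 1) := x_pos a1 _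
    have hy : 2 * yn a1 (k + 1) ≤ yn a1 (k + 1) * a := by
      rw [mul_comm 2]; exact Nat.mul_le_mul_left _ a1
    rw [yn_succ a1 (k + 1), pow_succ]
    omega

lemma index_le_log {a : ℕ} (a1 : 1 < a) {k T : ℕ} (h : yn a1 k ≤ T) :
    k ≤ Nat.log 2 T + 1 := by
  have h1 := two_pow_le_yn a1 k
  rcases k with _ | k
  · exact Nat.zero_le _
  · have h2 : 2 ^ k ≤ yn a1 (k + 1) := by rw [pow_succ] at h1; omega
    exact Nat.succ_le_succ (Nat.le_log_of_pow_le one_lt_two (h2.trans h))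

lemma yn_inj {a : ℕ} (a1 : 1 < a) {k k' : ℕ} (h : yn a1 k = yn a1 k') : k = k' :=
  (strictMono_y a1).injective h

/-- A solution of the Pell equation with a prescribed residue has a large index. -/
lemma index_residue {s k q : ℕ} (h : yn (a := s + 2) (by omega) k = s + (s + 1) * q) :
    k % (s + 1) = s := by
  have h1 := yn_modEq_a_sub_one (a := s + 2) (by omega) k
  rw [show s + 2 - 1 = s + 1 by omega, h] at h1
  have h2 : (s + (s + 1) * q) % (s + 1) = s := by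
    rw [Nat.add_mul_mod_self_left]; exact Nat.mod_eq_of_lt s.lt_succ_self
  show k % (s + 1) = s
  exact (Eq.symm h1).trans h2

lemma exists_solution (s : ℕ) :
    ∃ x u q : ℕ, (x : ℤ) * x - (((s : ℤ) + 2) * (s + 2) - 1) * u * u = 1 ∧
      u = s + (s + 1) * q := by
  have a1 : 1 < s + 2 := by omega
  have h1 := yn_modEq_a_sub_one a1 s
  rw [show s + 2 - 1 = s + 1 by omega] at h1
  obtain ⟨q, hq⟩ := (Nat.modEq_iff_dvd' (yn_ge_n a1 s)).1 h1.symm
  have hge := yn_ge_n a1 s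
  refine ⟨xn a1 s, yn a1 s, q, ?_, by omega⟩
  have := pell_eqz a1 s
  rw [dz_val] at this
  simpa [xz, yz, az] using this

lemma solution_index {s x u : ℕ}
    (h : (x : ℤ) * x - (((s : ℤ) + 2) * (s + 2) - 1) * u * u = 1) :
    ∃ k, x = xn (a := s + 2) (by omega) k ∧ u = yn (a := s + 2) (by omega) k := by
  have a1 : 1 < s + 2 := by omega
  refine eq_pell a1 ?_
  have h2 : 1 ≤ (s + 2) * (s + 2) := Nat.one_le_iff_ne_zero.2 (by positivity)
  have h3 : x * x = ((s + 2) * (s + 2) - 1) * u * u + 1 := by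
    zify [h2]
    linarith
  show x * x - ((s + 2) * (s + 2) - 1) * u * u = 1
  omega

/-- The first index of a chain bounds its weight. -/
lemma exists_threshold (m N : ℕ) :
    ∃ K, 1 ≤ K ∧ ∀ k, K ≤ k → 2 * (k + 1) ^ m * (N + 1) * (k * (k + 1)) ≤ 2 ^ k := by
  have ht : Filter.Tendsto (fun n : ℕ => (n : ℝ) ^ (m + 2) / (2 : ℝ) ^ n) Filter.atTop (nhds 0) :=
    tendsto_pow_const_div_const_pow_of_one_lt _ one_lt_two
  set c : ℝ := ((2 * 2 ^ (m + 2) * (N + 1) : ℕ) : ℝ) with hc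
  have hcpos : 0 < c := by rw [hc]; positivity
  obtain ⟨K, hK⟩ := Filter.eventually_atTop.1 (ht.eventually (gt_mem_nhds (inv_pos.2 hcpos)))
  refine ⟨K + 1, by omega, fun k hk => ?_⟩
  have h1 := hK k (by omega)
  rw [div_lt_iff₀ (by positivity), inv_mul_eq_div, lt_div_iff₀ hcpos] at h1
  have h2 : k ^ (m + 2) * (2 * 2 ^ (m + 2) * (N + 1)) ≤ 2 ^ k := by
    have : ((k ^ (m + 2) * (2 * 2 ^ (m + 2) * (N + 1)) : ℕ) : ℝ) ≤ ((2 ^ k : ℕ) : ℝ) := by
      push_cast
      rw [hc] at h1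
      push_cast at h1
      exact h1.le
    exact_mod_cast this
  refine le_trans ?_ h2
  have h3 : k * (k + 1) ≤ (k + 1) ^ 2 := by rw [sq]; exact Nat.mul_le_mul_right _ k.le_succ
  calc 2 * (k + 1) ^ m * (N + 1) * (k * (k + 1))
      ≤ 2 * (k + 1) ^ m * (N + 1) * (k + 1) ^ 2 := Nat.mul_le_mul_left _ h3
    _ = (k + 1) ^ (m + 2) * (2 * (N + 1)) := by ring
    _ ≤ (2 * k) ^ (m + 2) * (2 * (N + 1)) :=
        Nat.mul_le_mul_right _ (Nat.pow_le_pow_left (by omega) _)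
    _ = k ^ (m + 2) * (2 * 2 ^ (m + 2) * (N + 1)) := by ring

lemma sum_telescope (K : ℕ) (hK : 1 ≤ K) : ∀ j : ℕ,
    ∑ k ∈ Finset.Ico K (K + j), (1 : ℝ) / (k * (k + 1)) = 1 / K - 1 / (K + j)
  | 0 => by simp
  | j + 1 => by
    rw [show K + (j + 1) = K + j + 1 by omega, Finset.sum_Ico_succ_top (by omega),
      sum_telescope K hK j]
    have hKj : (0 : ℝ) < (K : ℝ) + j := by positivity
    have hK0 : (0 : ℝ) < (K : ℝ) := by exact_mod_cast hK
    push_cast
    field_simp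
    ring

/-- All chains below `L` together weigh at most `1 / N`. -/
lemma chain_count {m N K : ℕ} (hK1 : 1 ≤ K)
    (hK : ∀ k, K ≤ k → 2 * (k + 1) ^ m * (N + 1) * (k * (k + 1)) ≤ 2 ^ k)
    (L : ℕ) (f : ℕ → Finset (Fin m → ℕ)) (u : (Fin m → ℕ) → ℕ → ℕ)
    (hf : ∀ k, (f k).card ≤ (k + 1) ^ m)
    (hu : ∀ k, ∀ w ∈ f k, 2 ^ k ≤ 2 * (u w k + 1)) :
    N * ∑ k ∈ Finset.Ico K (K + L), ∑ w ∈ f k, (L + 1) / (u w k + 1) ≤ L + 1 := by
  suffices h : ((N * ∑ k ∈ Finset.Ico K (K + L), ∑ w ∈ f k, (L + 1) / (u w k + 1) : ℕ) : ℝ)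
      ≤ ((L + 1 : ℕ) : ℝ) by exact_mod_cast h
  push_cast
  rw [Finset.mul_sum]
  calc ∑ k ∈ Finset.Ico K (K + L), (N : ℝ) * ∑ w ∈ f k, (((L + 1) / (u w k + 1) : ℕ) : ℝ)
      ≤ ∑ k ∈ Finset.Ico K (K + L), ((L : ℝ) + 1) * (1 / (k * (k + 1))) := by
        refine Finset.sum_le_sum fun k hk => ?_
        have hk1 : 1 ≤ k := hK1.trans (Finset.mem_Ico.1 hk).1
        have hb : ((2 * (k + 1) ^ m * (N + 1) * (k * (k + 1)) : ℕ) : ℝ) ≤ (2 : ℝ) ^ k := by
          exact_mod_cast hK k (Finset.mem_Ico.1 hk).1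
        push_cast at hb
        have hterm : ∀ w ∈ f k, (((L + 1) / (u w k + 1) : ℕ) : ℝ) ≤ 2 * ((L : ℝ) + 1) / 2 ^ k := by
          intro w hw
          refine le_trans Nat.cast_div_le ?_
          have : ((2 ^ k : ℕ) : ℝ) ≤ ((2 * (u w k + 1) : ℕ) : ℝ) := by exact_mod_cast hu k w hw
          push_cast at this
          push_cast
          rw [div_le_div_iff₀ (by positivity) (by positivity)]
          nlinarith [this, (Nat.cast_nonneg L : (0 : ℝ) ≤ L)]
        refine le_trans (mul_le_mul_of_nonneg_left ((Finset.sum_le_card_nsmul _ _ _ hterm))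
          (Nat.cast_nonneg N)) ?_
        rw [nsmul_eq_mul]
        have hc : ((f k).card : ℝ) ≤ ((k : ℝ) + 1) ^ m := by exact_mod_cast hf k
        have hk0 : (0 : ℝ) < k := by exact_mod_cast hk1
        calc (N : ℝ) * (((f k).card : ℝ) * (2 * ((L : ℝ) + 1) / 2 ^ k))
            ≤ ((N : ℝ) + 1) * (((k : ℝ) + 1) ^ m * (2 * ((L : ℝ) + 1) / 2 ^ k)) := by
              gcongr; linarith
          _ = ((L : ℝ) + 1) * ((2 * ((k : ℝ) + 1) ^ m * ((N : ℝ) + 1)) / 2 ^ k) := by ring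
          _ ≤ ((L : ℝ) + 1) * (1 / (k * (k + 1))) := by
              refine mul_le_mul_of_nonneg_left ?_ (by positivity)
              rw [div_le_div_iff₀ (by positivity) (by positivity), one_mul]
              exact hb
    _ = ((L : ℝ) + 1) * (1 / K - 1 / (K + L)) := by
        rw [← Finset.mul_sum, sum_telescope K hK1 L]
    _ ≤ (L : ℝ) + 1 := by
        have h1 : (1 : ℝ) / K ≤ 1 := by
          rw [div_le_one (by exact_mod_cast hK1)]; exact_mod_cast hK1
        have h2 : (0 : ℝ) ≤ 1 / (K + L) := by positivity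
        nlinarith [(Nat.cast_nonneg L : (0 : ℝ) ≤ L)]

end Vale.Agent.P345
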